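import Vale.Agent.Lib.P042.Perfect

open Polynomial Vale.Agent.Lib.P042

/-- For every `h = f ^ μ` with `μ ≥ 2`, `f` nonconstant and separable over the rationals and
`h` with positive leading coefficient, of degree `k`, one has
`r_h(N) ≥ C * N ^ (1 - 1 / k + c)` with constants `c, C > 0` depending on `h`: a fixed power
more than the greedy bound `N ^ (1 - 1 / k)`. -/
theorem Vale.Agent.Results.P042.PerfectPowerGain.result (f : ℤ[X]) (μ : ℕ) (hμ : 2 ≤ μ)
    (hf : 0 < f.natDegree) (hsep : (f.map (Int.castRingHom ℚ)).Separable)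
    (hl : 0 < (f ^ μ).leadingCoeff) :
    ∃ c C : ℝ, 0 < c ∧ 0 < C ∧ ∀ N : ℕ, 1 ≤ N →
      C * (N : ℝ) ^ (1 - 1 / (((f ^ μ).natDegree : ℕ) : ℝ) + c) ≤ (rh (f ^ μ) N : ℝ) :=
  perfect_power_gain f μ hμ hf hsep hl
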