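import Vale.Agent.Results.P042.DigitLowerBound
import Vale.Agent.Results.P042.PerfectPowerGain

open Polynomial Vale.Agent.Lib.P042

/-- Both lower bounds for `r_h(N)` in one statement: the digit construction for `h = f ^ μ * g`
with its explicit exponent, and a fixed power more than the greedy bound `N ^ (1 - 1 / k)` for
every perfect power `h = f ^ μ` with `f` nonconstant and separable over the rationals. -/
theorem Vale.Agent.Results.P042.A0Conj.result :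
    (∀ (f g : ℤ[X]) (μ m : ℕ) (R : Finset ℕ),
      2 ≤ μ → Squarefree m → 2 ≤ m →
      (∀ p : ℕ, p.Prime → p ∣ m → ∀ t : ℤ, ¬ (p : ℤ) ∣ g.eval t) →
      (∀ p : ℕ, p.Prime → p ∣ m → ∀ t : ℤ, (p : ℤ) ∣ f.eval t →
        ¬ (p : ℤ) ∣ f.derivative.eval t) →
      R ⊆ Finset.range m → R.Nonempty →
      (∀ r ∈ R, ∀ r' ∈ R, r ≠ r' → ∃ p : ℕ, p.Prime ∧ p ∣ m ∧ ¬ (p : ℤ) ∣ ((r : ℤ) - r') ∧
        ∀ t y : ℤ, (p : ℤ) ∣ f.eval t → ¬ (p : ℤ) ∣ y →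
          ¬ (p : ℤ) ∣ ((r : ℤ) - r' - y ^ μ * g.eval t)) →
      1 ≤ (f ^ μ * g).natDegree → 0 < (f ^ μ * g).leadingCoeff →
      ∃ c : ℝ, 0 < c ∧ ∀ N : ℕ, 1 ≤ N →
        c * (N : ℝ) ^ (1 - 1 / (((f ^ μ * g).natDegree : ℕ) : ℝ)
          + Real.logb m R.card / ((f ^ μ * g).natDegree : ℕ)) ≤ (rh (f ^ μ * g) N : ℝ)) ∧
    (∀ (f : ℤ[X]) (μ : ℕ), 2 ≤ μ → 0 < f.natDegree → (f.map (Int.castRingHom ℚ)).Separable →
      0 < (f ^ μ).leadingCoeff →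
      ∃ c C : ℝ, 0 < c ∧ 0 < C ∧ ∀ N : ℕ, 1 ≤ N →
        C * (N : ℝ) ^ (1 - 1 / (((f ^ μ).natDegree : ℕ) : ℝ) + c) ≤ (rh (f ^ μ) N : ℝ)) :=
  ⟨fun f g μ m R hμ hm hm2 hg hf hR0 hne hR hk hl =>
      Vale.Agent.Results.P042.DigitLowerBound.result f g μ m R hμ hm hm2 hg hf hR0 hne hR hk hl,
    fun f μ hμ hf hsep hl =>
      Vale.Agent.Results.P042.PerfectPowerGain.result f μ hμ hf hsep hl⟩
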