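import Vale.Agent.Lib.P042.Main

open Polynomial Vale.Agent.Lib.P042

/-- Digit construction for `h = f ^ μ * g` of degree `k ≥ 1` with positive leading coefficient.
Let `μ ≥ 2`, `m ≥ 2` squarefree, and for each prime `p ∣ m` suppose `g` has no root modulo `p`
and every root of `f` modulo `p` is simple. Let `R` be a nonempty set of residues modulo `m` such
that any two distinct `r, r' ∈ R` have a prime `p ∣ m` with `r ≢ r' (mod p)` and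
`r - r' ≢ y ^ μ * g(t) (mod p)` whenever `p ∣ f(t)` and `p ∤ y`. Then
`r_h(N) ≥ c * N ^ (1 - 1 / k + log_m |R| / k)` for a constant `c > 0`. -/
theorem Vale.Agent.Results.P042.DigitLowerBound.result (f g : ℤ[X]) (μ m : ℕ) (R : Finset ℕ)
    (hμ : 2 ≤ μ) (hm : Squarefree m) (hm2 : 2 ≤ m)
    (hg : ∀ p : ℕ, p.Prime → p ∣ m → ∀ t : ℤ, ¬ (p : ℤ) ∣ g.eval t)
    (hf : ∀ p : ℕ, p.Prime → p ∣ m → ∀ t : ℤ, (p : ℤ) ∣ f.eval t →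
      ¬ (p : ℤ) ∣ f.derivative.eval t)
    (hR0 : R ⊆ Finset.range m) (hne : R.Nonempty)
    (hR : ∀ r ∈ R, ∀ r' ∈ R, r ≠ r' → ∃ p : ℕ, p.Prime ∧ p ∣ m ∧ ¬ (p : ℤ) ∣ ((r : ℤ) - r') ∧
      ∀ t y : ℤ, (p : ℤ) ∣ f.eval t → ¬ (p : ℤ) ∣ y →
        ¬ (p : ℤ) ∣ ((r : ℤ) - r' - y ^ μ * g.eval t))
    (hk : 1 ≤ (f ^ μ * g).natDegree) (hl : 0 < (f ^ μ * g).leadingCoeff) :
    ∃ c : ℝ, 0 < c ∧ ∀ N : ℕ, 1 ≤ N →
      c * (N : ℝ) ^ (1 - 1 / (((f ^ μ * g).natDegree : ℕ) : ℝ)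
        + Real.logb m R.card / ((f ^ μ * g).natDegree : ℕ)) ≤ (rh (f ^ μ * g) N : ℝ) :=
  main_bound ⟨hμ, hm, hm2, hg, hf, hR0, hR⟩ hne hk hl
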